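import Mathlib

set_option autoImplicit false

/-!
# Highest weight polynomials

Polynomials in the entries `x_{i,j}` of an `n × σ` matrix (`i` the row, `j` the column) with given
row degrees, which do not change when multiples of upper rows are added to lower rows.
-/

open MvPolynomial

namespace Vale.Agent.P181.T4

/-- The row operator `∑ j, x_{s,j} ∂/∂x_{i,j}`. -/
noncomputable def rowOp {n : ℕ} {σ : Type} [Fintype σ] (s i : Fin n) :
    MvPolynomial (Fin n × σ) ℂ →ₗ[ℂ] MvPolynomial (Fin n × σ) ℂ :=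
  ∑ j, (LinearMap.mulLeft ℂ (X (s, j))) ∘ₗ (pderiv (R := ℂ) (i, j)).toLinearMap

lemma rowOp_apply {n : ℕ} {σ : Type} [Fintype σ] (s i : Fin n)
    (f : MvPolynomial (Fin n × σ) ℂ) :
    rowOp s i f = ∑ j, X (s, j) * pderiv (i, j) f := by
  simp only [rowOp, LinearMap.sum_apply, LinearMap.comp_apply, LinearMap.mulLeft_apply]
  rfl

/-- The highest weight polynomials: the row degrees are `lam`, and all row operators `s < i` kill
the polynomial. -/
noncomputable def HW (n : ℕ) (σ : Type) [Fintype σ] (lam : Fin n → ℕ) :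
    Submodule ℂ (MvPolynomial (Fin n × σ) ℂ) where
  carrier := {f | (∀ v : Fin n × σ →₀ ℕ, coeff v f ≠ 0 → ∀ i, ∑ j, v (i, j) = lam i) ∧
    ∀ s i : Fin n, s < i → rowOp s i f = 0}
  zero_mem' := ⟨fun v hv => absurd (coeff_zero v) hv, fun s i _ => map_zero _⟩
  add_mem' := by
    rintro f g ⟨hf, hf'⟩ ⟨hg, hg'⟩
    refine ⟨fun v hv i => ?_, fun s i h => by rw [map_add, hf' s i h, hg' s i h, add_zero]⟩
    rw [coeff_add] at hv
    by_cases h : coeff v f = 0
    · rw [h, zero_add] at hv
      exact hg v hv i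
    · exact hf v h i
  smul_mem' := by
    rintro c f ⟨hf, hf'⟩
    refine ⟨fun v hv i => ?_, fun s i h => by rw [map_smul, hf' s i h, smul_zero]⟩
    rw [coeff_smul, smul_eq_mul] at hv
    exact hf v (right_ne_zero_of_mul hv) i

lemma mem_HW {n : ℕ} {σ : Type} [Fintype σ] {lam : Fin n → ℕ}
    {f : MvPolynomial (Fin n × σ) ℂ} :
    f ∈ HW n σ lam ↔ (∀ v : Fin n × σ →₀ ℕ, coeff v f ≠ 0 → ∀ i, ∑ j, v (i, j) = lam i) ∧
      ∀ s i : Fin n, s < i → rowOp s i f = 0 := Iff.rfl

/-- The row weight of a variable. -/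
def rowW (n : ℕ) (σ : Type) : Fin n × σ → (Fin n → ℕ) := fun p => Pi.single p.1 1

lemma weight_rowW {n : ℕ} {σ : Type} [Fintype σ] (v : Fin n × σ →₀ ℕ) (i : Fin n) :
    Finsupp.weight (rowW n σ) v i = ∑ j, v (i, j) := by
  classical
  have h0 : v.sum (fun p c => c • rowW n σ p) i = ∑ p ∈ v.support, (v p • rowW n σ p) i := by
    rw [Finsupp.sum, Finset.sum_apply]
  have h1 : ∑ p ∈ v.support, (v p • rowW n σ p) i = ∑ p : Fin n × σ, (v p • rowW n σ p) i := by
    apply Finset.sum_subset (Finset.subset_univ _)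
    intro p _ hp
    rw [Finsupp.notMem_support_iff.1 hp, zero_smul, Pi.zero_apply]
  rw [Finsupp.weight_apply, h0, h1, Fintype.sum_prod_type, Finset.sum_eq_single i]
  · apply Finset.sum_congr rfl
    intro j _
    simp [rowW]
  · intro k _ hk
    apply Finset.sum_eq_zero
    intro j _
    simp [rowW, Pi.single_eq_of_ne (Ne.symm hk)]
  · intro h
    exact absurd (Finset.mem_univ _) h

/-- The row degrees as weighted homogeneity. -/
lemma mem_HW_iff_isWeightedHomogeneous {n : ℕ} {σ : Type} [Fintype σ] {lam : Fin n → ℕ}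
    {f : MvPolynomial (Fin n × σ) ℂ} :
    f ∈ HW n σ lam ↔ IsWeightedHomogeneous (rowW n σ) f lam ∧
      ∀ s i : Fin n, s < i → rowOp s i f = 0 := by
  rw [mem_HW]
  constructor
  · rintro ⟨h1, h2⟩
    refine ⟨fun v hv => ?_, h2⟩
    funext i
    rw [weight_rowW]
    exact h1 v hv i
  · rintro ⟨h1, h2⟩
    refine ⟨fun v hv i => ?_, h2⟩
    rw [← weight_rowW, h1 hv]

/-- The space of highest weight polynomials is finite dimensional. -/
instance finiteDimensional_HW (n : ℕ) (σ : Type) [Fintype σ] (lam : Fin n → ℕ) :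
    FiniteDimensional ℂ (HW n σ lam) := by
  classical
  let T := Fin n × σ → Fin ((∑ i, lam i) + 1)
  let e : T → (Fin n × σ →₀ ℕ) := fun u => Finsupp.equivFunOnFinite.symm (fun p => (u p : ℕ))
  let L : HW n σ lam →ₗ[ℂ] (T → ℂ) :=
    { toFun := fun f u => coeff (e u) f.1
      map_add' := fun f g => by funext u; exact coeff_add _ _ _
      map_smul' := fun c f => by funext u; exact coeff_smul _ _ _ }
  have hL : Function.Injective L := by
    rw [← LinearMap.ker_eq_bot, LinearMap.ker_eq_bot']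
    intro f hf
    apply Subtype.ext
    apply MvPolynomial.ext
    intro v
    rw [ZeroMemClass.coe_zero, coeff_zero]
    by_contra hv
    have h1 : ∀ p, v p < (∑ i, lam i) + 1 := by
      intro p
      have h2 := f.2.1 v hv p.1
      have h3 : v p ≤ ∑ j, v (p.1, j) :=
        Finset.single_le_sum (f := fun j => v (p.1, j)) (fun j _ => Nat.zero_le _)
          (Finset.mem_univ p.2)
      have h4 : lam p.1 ≤ ∑ i, lam i :=
        Finset.single_le_sum (fun i _ => Nat.zero_le (lam i)) (Finset.mem_univ p.1)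
      omega
    have h5 := congrFun hf (fun p => ⟨v p, h1 p⟩)
    apply hv
    have h6 : e (fun p => ⟨v p, h1 p⟩) = v := by
      ext p
      rfl
    change coeff (e (fun p => ⟨v p, h1 p⟩)) f.1 = 0 at h5
    rw [h6] at h5
    exact h5
  exact FiniteDimensional.of_injective L hL

end Vale.Agent.P181.T4
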