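import Vale.Agent.P181.H583.Poly
import Vale.Agent.P181.H583.HWDef

set_option autoImplicit false

/-!
# The upper bound

The highest weight polynomials of weight `lam` in `R + m` rows inject into the families of highest
weight polynomials of the last `m` rows, indexed by the monomials in the first `R` rows.
-/

open scoped TensorProduct
open MvPolynomial

namespace Vale.Agent.P181.T4

open Vale.Agent.P181 Vale.Agent.P181.H280

variable {n : ℕ} {σ : Type}

/-- A diagonal matrix multiplies monomials by scalars. -/
lemma coeff_polyAct_diagonal (t : Fin n → ℂ) (f : MvPolynomial (Fin n × σ) ℂ)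
    (v : Fin n × σ →₀ ℕ) :
    coeff v (polyAct n σ (Matrix.diagonal t) f) =
      (v.prod fun p k => t p.1 ^ k) * coeff v f := by
  classical
  have hX : ∀ p : Fin n × σ, polyAct n σ (Matrix.diagonal t) (X p) = t p.1 • X p := by
    intro p
    rw [polyAct_X, Finset.sum_eq_single p.1]
    · rw [Matrix.diagonal_apply_eq]
    · intro k _ hk
      rw [Matrix.diagonal_apply_ne _ hk, zero_smul]
    · intro h
      exact absurd (Finset.mem_univ _) h
  induction f using MvPolynomial.induction_on' with
  | monomial u c =>
    have h1 : polyAct n σ (Matrix.diagonal t) (monomial u c) =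
        (u.prod fun p k => t p.1 ^ k) • monomial u c := by
      rw [monomial_eq, polyAct, AlgHom.toLinearMap_apply, map_mul, map_finsuppProd]
      simp only [map_pow, algHom_C, algebraMap_eq]
      have h2 : ∀ p : Fin n × σ, (aeval (fun p : Fin n × σ => ∑ k, Matrix.diagonal t k p.1 •
          (X (k, p.2) : MvPolynomial (Fin n × σ) ℂ))) (X p) = t p.1 • X p := fun p => hX p
      simp only [h2, smul_pow]
      simp only [Finsupp.prod]
      rw [Finset.prod_smul, mul_smul_comm]
    rw [h1, coeff_smul, smul_eq_mul, coeff_monomial]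
    split_ifs with h
    · rw [h]
    · rw [mul_zero, mul_zero]
  | add p q hp hq => rw [map_add, coeff_add, hp, hq, coeff_add, mul_add]

/-- The row degrees of the monomials of a highest weight polynomial. -/
lemma rowDeg_of_hw [Fintype σ] {lam : Fin n → ℕ} {f : MvPolynomial (Fin n × σ) ℂ}
    (hf : f ∈ hwSpace lam (polyAct n σ)) {v : Fin n × σ →₀ ℕ} (hv : coeff v f ≠ 0) (i : Fin n) :
    ∑ j, v (i, j) = lam i := by
  classical
  let t : Fin n → ℂ := Function.update 1 i 2
  have ht : ∀ k, t k ≠ 0 := by
    intro k
    by_cases hk : k = i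
    · subst hk; simp [t]
    · simp [t, Function.update_of_ne hk]
  have hB : IsBorel (Matrix.diagonal t) := by
    refine ⟨fun a b hab => Matrix.diagonal_apply_ne _ (ne_of_gt hab), fun a => ?_⟩
    rw [Matrix.diagonal_apply_eq]
    exact ht a
  have h1 := congrArg (coeff v) (hf _ hB)
  rw [coeff_polyAct_diagonal, coeff_smul, smul_eq_mul] at h1
  have h2 := mul_right_cancel₀ hv h1
  have h3 : (∏ k, Matrix.diagonal t k k ^ lam k) = (2 : ℂ) ^ lam i := by
    rw [Finset.prod_eq_single i]
    · simp [t]
    · intro k _ hk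
      simp [t, Function.update_of_ne hk]
    · intro h
      exact absurd (Finset.mem_univ _) h
  have h4 : (v.prod fun p k => t p.1 ^ k) = (2 : ℂ) ^ (∑ j, v (i, j)) := by
    rw [Finsupp.prod_fintype _ _ (fun p => pow_zero _), Fintype.prod_prod_type,
      Finset.prod_eq_single i]
    · rw [← Finset.prod_pow_eq_pow_sum]
      apply Finset.prod_congr rfl
      intro j _
      simp [t]
    · intro k _ hk
      apply Finset.prod_eq_one
      intro j _
      simp [t, Function.update_of_ne hk]
    · intro h
      exact absurd (Finset.mem_univ _) h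
  rw [h3, h4] at h2
  have h5 : ((2 ^ (∑ j, v (i, j)) : ℕ) : ℂ) = ((2 ^ lam i : ℕ) : ℂ) := by
    push_cast
    exact h2
  exact Nat.pow_right_injective (le_refl 2) (by exact_mod_cast h5)

/-- The splitting of the variables into the first `R` rows and the last `m` rows. -/
def rowSplit (R m : ℕ) (σ : Type) : Fin (R + m) × σ ≃ (Fin R × σ) ⊕ (Fin m × σ) :=
  (Equiv.prodCongrLeft (fun _ => (finSumFinEquiv (m := R) (n := m)).symm)).trans
    (Equiv.sumProdDistrib _ _ _)

lemma rowSplit_castAdd (R m : ℕ) (i : Fin R) (j : σ) :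
    rowSplit R m σ (Fin.castAdd m i, j) = Sum.inl (i, j) := by
  simp [rowSplit]

lemma rowSplit_natAdd (R m : ℕ) (i : Fin m) (j : σ) :
    rowSplit R m σ (Fin.natAdd R i, j) = Sum.inr (i, j) := by
  simp [rowSplit]

/-- A polynomial as a polynomial in the first `R` rows with coefficients in the last `m` rows. -/
noncomputable def splitP (R m : ℕ) (σ : Type) : MvPolynomial (Fin (R + m) × σ) ℂ ≃ₐ[ℂ]
    MvPolynomial (Fin R × σ) (MvPolynomial (Fin m × σ) ℂ) :=
  (renameEquiv ℂ (rowSplit R m σ)).trans (sumAlgEquiv ℂ (Fin R × σ) (Fin m × σ))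

lemma splitP_castAdd (R m : ℕ) (i : Fin R) (j : σ) :
    splitP R m σ (X (Fin.castAdd m i, j)) = X (i, j) := by
  rw [splitP, AlgEquiv.trans_apply, renameEquiv_apply, rename_X, rowSplit_castAdd]
  exact sumAlgEquiv_X_inl ℂ _ _ _

lemma splitP_natAdd (R m : ℕ) (i : Fin m) (j : σ) :
    splitP R m σ (X (Fin.natAdd R i, j)) = C (X (i, j)) := by
  rw [splitP, AlgEquiv.trans_apply, renameEquiv_apply, rename_X, rowSplit_natAdd]
  exact sumAlgEquiv_X_inr ℂ _ _ _

/-- The block diagonal matrix with blocks `diagonal t` and `g`. -/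
def blockM {R m : ℕ} (t : Fin R → ℂ) (g : Matrix (Fin m) (Fin m) ℂ) :
    Matrix (Fin (R + m)) (Fin (R + m)) ℂ :=
  Matrix.reindex finSumFinEquiv finSumFinEquiv (Matrix.fromBlocks (Matrix.diagonal t) 0 0 g)

lemma blockM_cc {R m : ℕ} (t : Fin R → ℂ) (g : Matrix (Fin m) (Fin m) ℂ) (i k : Fin R) :
    blockM t g (Fin.castAdd m i) (Fin.castAdd m k) = Matrix.diagonal t i k := by
  simp [blockM]

lemma blockM_nn {R m : ℕ} (t : Fin R → ℂ) (g : Matrix (Fin m) (Fin m) ℂ) (i k : Fin m) :
    blockM t g (Fin.natAdd R i) (Fin.natAdd R k) = g i k := by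
  simp [blockM]

lemma blockM_cn {R m : ℕ} (t : Fin R → ℂ) (g : Matrix (Fin m) (Fin m) ℂ) (i : Fin R)
    (k : Fin m) : blockM t g (Fin.castAdd m i) (Fin.natAdd R k) = 0 := by
  simp [blockM]

lemma blockM_nc {R m : ℕ} (t : Fin R → ℂ) (g : Matrix (Fin m) (Fin m) ℂ) (i : Fin m)
    (k : Fin R) : blockM t g (Fin.natAdd R i) (Fin.castAdd m k) = 0 := by
  simp [blockM]

lemma blockM_borel {R m : ℕ} {t : Fin R → ℂ} {g : Matrix (Fin m) (Fin m) ℂ}
    (ht : ∀ i, t i ≠ 0) (hg : IsBorel g) : IsBorel (blockM t g) := by
  constructor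
  · intro i j hij
    induction i using Fin.addCases with
    | left i =>
      induction j using Fin.addCases with
      | left j =>
        rw [blockM_cc]
        apply Matrix.diagonal_apply_ne
        rintro rfl
        exact lt_irrefl _ hij
      | right j => rw [blockM_cn]
    | right i =>
      induction j using Fin.addCases with
      | left j => rw [blockM_nc]
      | right j =>
        rw [blockM_nn]
        apply hg.1
        simpa using hij
  · intro i
    induction i using Fin.addCases with
    | left i => rw [blockM_cc, Matrix.diagonal_apply_eq]; exact ht i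
    | right i => rw [blockM_nn]; exact hg.2 i

/-- The action of a block diagonal matrix on polynomials in the first rows with coefficients in
the last rows. -/
noncomputable def blockHom {R m : ℕ} (σ : Type) (t : Fin R → ℂ) (g : Matrix (Fin m) (Fin m) ℂ) :
    MvPolynomial (Fin R × σ) (MvPolynomial (Fin m × σ) ℂ) →+*
      MvPolynomial (Fin R × σ) (MvPolynomial (Fin m × σ) ℂ) :=
  eval₂Hom (C.comp (aeval (fun p : Fin m × σ =>
    ∑ k, g k p.1 • (X (k, p.2) : MvPolynomial (Fin m × σ) ℂ))).toRingHom)
    (fun p => C (C (t p.1)) * X p)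

lemma coeff_blockHom {R m : ℕ} (t : Fin R → ℂ) (g : Matrix (Fin m) (Fin m) ℂ)
    (P : MvPolynomial (Fin R × σ) (MvPolynomial (Fin m × σ) ℂ)) (u : Fin R × σ →₀ ℕ) :
    coeff u (blockHom σ t g P) = (u.prod fun p k => t p.1 ^ k) • polyAct m σ g (coeff u P) := by
  classical
  induction P using MvPolynomial.induction_on' with
  | monomial v c =>
    have h1 : blockHom σ t g (monomial v c) =
        monomial v ((v.prod fun p k => t p.1 ^ k) • polyAct m σ g c) := by
      rw [blockHom, coe_eval₂Hom, eval₂_monomial]
      rw [Finsupp.prod, Finsupp.prod]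
      simp only [mul_pow]
      rw [Finset.prod_mul_distrib, monomial_eq, Finsupp.prod, ← mul_assoc]
      congr 1
      simp only [← map_pow, ← map_prod]
      rw [smul_eq_C_mul, mul_comm, C_mul]
      rfl
    rw [h1, coeff_monomial, coeff_monomial]
    split_ifs with h
    · rw [h]
    · rw [map_zero, smul_zero]
  | add p q hp hq => rw [map_add, coeff_add, hp, hq, coeff_add, map_add, smul_add]

lemma splitP_act {R m : ℕ} (t : Fin R → ℂ) (g : Matrix (Fin m) (Fin m) ℂ)
    (f : MvPolynomial (Fin (R + m) × σ) ℂ) :
    splitP R m σ (polyAct (R + m) σ (blockM t g) f) = blockHom σ t g (splitP R m σ f) := by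
  induction f using MvPolynomial.induction_on with
  | C c =>
    have h1 : splitP R m σ (C c) = C (C c) := by
      rw [splitP, AlgEquiv.trans_apply, renameEquiv_apply, rename_C]
      exact sumAlgEquiv_C_inl ℂ _ _ c
    have h2 : polyAct (R + m) σ (blockM t g) (C c) = C c := by
      rw [polyAct, AlgHom.toLinearMap_apply, algHom_C]
      rfl
    rw [h2, h1, blockHom, coe_eval₂Hom, eval₂_C, RingHom.comp_apply]
    congr 1
    exact (algHom_C _ c).symm
  | add p q hp hq => rw [map_add, map_add, hp, hq, map_add, map_add]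
  | mul_X p k hp =>
    rw [polyAct_mul, map_mul, hp, map_mul, map_mul]
    congr 1
    obtain ⟨k, j⟩ := k
    rw [polyAct_X, map_sum, Fin.sum_univ_add]
    simp only [map_smul, splitP_castAdd, splitP_natAdd]
    induction k using Fin.addCases with
    | left k =>
      simp only [blockM_cc, blockM_nc, zero_smul, Finset.sum_const_zero, add_zero]
      rw [Finset.sum_eq_single k]
      · rw [Matrix.diagonal_apply_eq, splitP_castAdd, blockHom, coe_eval₂Hom, eval₂_X]
        rw [Algebra.smul_def]
        rfl
      · intro i _ hi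
        rw [Matrix.diagonal_apply_ne _ hi, zero_smul]
      · intro h
        exact absurd (Finset.mem_univ _) h
    | right k =>
      simp only [blockM_cn, blockM_nn, zero_smul, Finset.sum_const_zero, zero_add]
      rw [splitP_natAdd, blockHom, coe_eval₂Hom, eval₂_C, RingHom.comp_apply]
      have h3 : (aeval (R := ℂ) (fun p : Fin m × σ => ∑ k, g k p.1 •
          (X (k, p.2) : MvPolynomial (Fin m × σ) ℂ))).toRingHom
            (X (k, j) : MvPolynomial (Fin m × σ) ℂ) =
          ∑ i, g i k • (X (i, j) : MvPolynomial (Fin m × σ) ℂ) := by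
        exact aeval_X _ _
      rw [h3, map_sum]
      apply Finset.sum_congr rfl
      intro i _
      rw [smul_eq_C_mul, C_mul, Algebra.smul_def]
      rfl

lemma polyAct_one (f : MvPolynomial (Fin n × σ) ℂ) : polyAct n σ 1 f = f := by
  classical
  have h1 : (fun p : Fin n × σ => ∑ k, (1 : Matrix (Fin n) (Fin n) ℂ) k p.1 •
      (X (k, p.2) : MvPolynomial (Fin n × σ) ℂ)) = X := by
    funext p
    rw [Finset.sum_eq_single p.1]
    · rw [Matrix.one_apply_eq, one_smul]
    · intro k _ hk
      rw [Matrix.one_apply_ne hk, zero_smul]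
    · intro h
      exact absurd (Finset.mem_univ _) h
  rw [polyAct, h1, AlgHom.toLinearMap_apply, aeval_X_left, AlgHom.id_apply]

/-- The matrix `1 + c e_{s,i}`. -/
def shearM (s i : Fin n) (c : ℂ) : Matrix (Fin n) (Fin n) ℂ :=
  fun k l => (if k = l then 1 else 0) + if k = s ∧ l = i then c else 0

lemma shearM_borel {s i : Fin n} (h : s < i) (c : ℂ) : IsBorel (shearM s i c) := by
  constructor
  · intro k l hkl
    rw [shearM, if_neg (ne_of_gt hkl), if_neg, add_zero]
    rintro ⟨rfl, rfl⟩
    exact absurd (lt_trans h hkl) (lt_irrefl _)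
  · intro k
    rw [shearM, if_pos rfl, if_neg, add_zero]
    · exact one_ne_zero
    · rintro ⟨rfl, rfl⟩
      exact lt_irrefl _ h

lemma shearM_diag {s i : Fin n} (h : s < i) (c : ℂ) (k : Fin n) : shearM s i c k k = 1 := by
  rw [shearM, if_pos rfl, if_neg, add_zero]
  rintro ⟨rfl, rfl⟩
  exact lt_irrefl _ h

/-- The one parameter family of the matrices `1 + c e_{s,i}`, with `c` a variable. -/
noncomputable def shearHom (σ : Type) (s i : Fin n) :
    MvPolynomial (Fin n × σ) ℂ →+* Polynomial (MvPolynomial (Fin n × σ) ℂ) :=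
  eval₂Hom (Polynomial.C.comp C) (fun p => Polynomial.C (X p) +
    if p.1 = i then Polynomial.X * Polynomial.C (X (s, p.2)) else 0)

lemma shearHom_X (s i : Fin n) (p : Fin n × σ) :
    shearHom σ s i (X p) = Polynomial.C (X p) +
      if p.1 = i then Polynomial.X * Polynomial.C (X (s, p.2)) else 0 := by
  rw [shearHom, coe_eval₂Hom, eval₂_X]

lemma shearHom_C (s i : Fin n) (c : ℂ) :
    shearHom σ s i (C c) = Polynomial.C (C c) := by
  rw [shearHom, coe_eval₂Hom, eval₂_C, RingHom.comp_apply]

lemma shearHom_eval (s i : Fin n) (c : ℂ) (f : MvPolynomial (Fin n × σ) ℂ) :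
    (shearHom σ s i f).eval (C c) = polyAct n σ (shearM s i c) f := by
  classical
  induction f using MvPolynomial.induction_on with
  | C r =>
    rw [shearHom_C, Polynomial.eval_C, polyAct, AlgHom.toLinearMap_apply, algHom_C]
    rfl
  | add p q hp hq => rw [map_add, Polynomial.eval_add, hp, hq, map_add]
  | mul_X p k hp =>
    rw [map_mul, Polynomial.eval_mul, hp, polyAct_mul]
    congr 1
    rw [shearHom_X, polyAct_X, Polynomial.eval_add, Polynomial.eval_C]
    simp only [shearM, add_smul, Finset.sum_add_distrib]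
    congr 1
    · rw [Finset.sum_eq_single k.1]
      · rw [if_pos rfl, one_smul]
      · intro l _ hl
        rw [if_neg hl, zero_smul]
      · intro h
        exact absurd (Finset.mem_univ _) h
    · by_cases hk : k.1 = i
      · rw [if_pos hk, Finset.sum_eq_single s]
        · rw [if_pos ⟨rfl, hk⟩, Polynomial.eval_mul, Polynomial.eval_X, Polynomial.eval_C,
            smul_eq_C_mul]
        · intro l _ hl
          rw [if_neg (fun h => hl h.1), zero_smul]
        · intro h
          exact absurd (Finset.mem_univ _) h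
      · rw [if_neg hk, Polynomial.eval_zero]
        symm
        apply Finset.sum_eq_zero
        intro l _
        rw [if_neg (fun h => hk h.2), zero_smul]

lemma rowOp_mul [Fintype σ] (s i : Fin n) (f g : MvPolynomial (Fin n × σ) ℂ) :
    rowOp s i (f * g) = f * rowOp s i g + rowOp s i f * g := by
  rw [rowOp_apply, rowOp_apply, rowOp_apply, Finset.mul_sum, Finset.sum_mul,
    ← Finset.sum_add_distrib]
  apply Finset.sum_congr rfl
  intro j _
  rw [Derivation.leibniz, smul_eq_mul, smul_eq_mul]
  ring

lemma rowOp_X [Fintype σ] (s i : Fin n) (p : Fin n × σ) :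
    rowOp s i (X p : MvPolynomial (Fin n × σ) ℂ) = if p.1 = i then X (s, p.2) else 0 := by
  classical
  rw [rowOp_apply]
  by_cases h : p.1 = i
  · rw [if_pos h, Finset.sum_eq_single p.2]
    · have h1 : (i, p.2) = p := by rw [← h]
      rw [h1, pderiv_X_self, mul_one]
    · intro j _ hj
      rw [pderiv_X_of_ne, mul_zero]
      intro h2
      exact hj (by rw [h2])
    · intro h
      exact absurd (Finset.mem_univ _) h
  · rw [if_neg h]
    apply Finset.sum_eq_zero
    intro j _
    rw [pderiv_X_of_ne, mul_zero]
    intro h2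
    exact h (by rw [h2])

lemma shearHom_coeff [Fintype σ] (s i : Fin n) (f : MvPolynomial (Fin n × σ) ℂ) :
    (shearHom σ s i f).coeff 0 = f ∧ (shearHom σ s i f).coeff 1 = rowOp s i f := by
  classical
  induction f using MvPolynomial.induction_on with
  | C r =>
    rw [shearHom_C, Polynomial.coeff_C_zero, Polynomial.coeff_C_succ, rowOp_apply]
    refine ⟨rfl, ?_⟩
    symm
    apply Finset.sum_eq_zero
    intro j _
    rw [pderiv_C, mul_zero]
  | add p q hp hq =>
    rw [map_add, Polynomial.coeff_add, Polynomial.coeff_add, hp.1, hp.2, hq.1, hq.2, map_add]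
    exact ⟨rfl, rfl⟩
  | mul_X p k hp =>
    have h0 : (shearHom σ s i (X k)).coeff 0 = X k := by
      rw [shearHom_X, Polynomial.coeff_add, Polynomial.coeff_C_zero]
      split_ifs
      · rw [Polynomial.coeff_X_mul_zero, add_zero]
      · rw [Polynomial.coeff_zero, add_zero]
    have h1 : (shearHom σ s i (X k)).coeff 1 = rowOp s i (X k) := by
      rw [shearHom_X, Polynomial.coeff_add, rowOp_X, Polynomial.coeff_C_succ, zero_add]
      split_ifs
      · rw [Polynomial.coeff_X_mul, Polynomial.coeff_C_zero]
      · rw [Polynomial.coeff_zero]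
    rw [map_mul, Polynomial.mul_coeff_zero, Polynomial.mul_coeff_one, hp.1, hp.2, h0, h1,
      rowOp_mul]
    exact ⟨rfl, rfl⟩

/-- Invariance under the Borel subgroup gives the conditions on the row operators. -/
theorem hwSpace_le_HW [Fintype σ] (lam : Fin n → ℕ) :
    hwSpace lam (polyAct n σ) ≤ HW n σ lam := by
  intro f hf
  refine ⟨fun v hv i => rowDeg_of_hw hf hv i, fun s i hsi => ?_⟩
  have h1 : shearHom σ s i f - Polynomial.C f = 0 := by
    apply Polynomial.eq_zero_of_infinite_isRoot
    apply Set.infinite_of_injective_forall_mem (f := fun c : ℂ => (C c : MvPolynomial (Fin n × σ) ℂ))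
      (C_injective _ _)
    intro c
    change Polynomial.IsRoot _ _
    rw [Polynomial.IsRoot, Polynomial.eval_sub, Polynomial.eval_C, shearHom_eval,
      hf _ (shearM_borel hsi c)]
    simp only [shearM_diag hsi, one_pow, Finset.prod_const_one, one_smul, sub_self]
  have h2 := congrArg (fun P => Polynomial.coeff P 1) (sub_eq_zero.1 h1)
  simp only [Polynomial.coeff_C_succ] at h2
  rw [← (shearHom_coeff s i f).2, h2]

instance [Fintype σ] (lam : Fin n → ℕ) : FiniteDimensional ℂ (hwSpace lam (polyAct n σ)) :=
  Submodule.finiteDimensional_of_le (hwSpace_le_HW lam)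

/-- The coefficients of a highest weight polynomial are highest weight polynomials. -/
lemma coeff_split_mem {R m : ℕ} {lam : Fin (R + m) → ℕ} {f : MvPolynomial (Fin (R + m) × σ) ℂ}
    (hf : f ∈ hwSpace lam (polyAct (R + m) σ)) (u : Fin R × σ →₀ ℕ) :
    coeff u (splitP R m σ f) ∈ hwSpace (fun i => lam (Fin.natAdd R i)) (polyAct m σ) := by
  intro g hg
  have h1 := congrArg (fun P => coeff u (splitP R m σ P))
    (hf (blockM (1 : Fin R → ℂ) g) (blockM_borel (fun i => one_ne_zero) hg))
  simp only [splitP_act, coeff_blockHom, map_smul, Pi.one_apply, one_pow] at h1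
  rw [Finsupp.prod, Finset.prod_const_one, one_smul] at h1
  rw [h1, Fin.prod_univ_add]
  simp only [blockM_cc, blockM_nn, Matrix.diagonal_apply_eq, Pi.one_apply, one_pow,
    Finset.prod_const_one, one_mul]
  rfl

/-- Only the monomials with the right row degrees occur. -/
lemma coeff_split_deg [Fintype σ] {R m : ℕ} {lam : Fin (R + m) → ℕ}
    {f : MvPolynomial (Fin (R + m) × σ) ℂ}
    (hf : f ∈ hwSpace lam (polyAct (R + m) σ)) {u : Fin R × σ →₀ ℕ}
    (hu : coeff u (splitP R m σ f) ≠ 0) (r : Fin R) :
    ∑ j, u (r, j) = lam (Fin.castAdd m r) := by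
  classical
  let t : Fin R → ℂ := Function.update 1 r 2
  have ht : ∀ k, t k ≠ 0 := by
    intro k
    by_cases hk : k = r
    · subst hk; simp [t]
    · simp [t, Function.update_of_ne hk]
  have hone : IsBorel (1 : Matrix (Fin m) (Fin m) ℂ) :=
    ⟨fun i j h => Matrix.one_apply_ne (ne_of_gt h), fun i => by
      rw [Matrix.one_apply_eq]; exact one_ne_zero⟩
  have h1 := congrArg (fun P => coeff u (splitP R m σ P)) (hf (blockM t 1) (blockM_borel ht hone))
  simp only [splitP_act, coeff_blockHom, map_smul, polyAct_one] at h1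
  have h2 : coeff u ((∏ i, blockM t (1 : Matrix (Fin m) (Fin m) ℂ) i i ^ lam i) •
      splitP R m σ f) = (∏ i, blockM t (1 : Matrix (Fin m) (Fin m) ℂ) i i ^ lam i) •
      coeff u (splitP R m σ f) := rfl
  rw [h2] at h1
  have h3 := smul_left_injective ℂ hu h1
  have h4 : (u.prod fun p k => t p.1 ^ k) = (2 : ℂ) ^ (∑ j, u (r, j)) := by
    rw [Finsupp.prod_fintype _ _ (fun p => pow_zero _), Fintype.prod_prod_type,
      Finset.prod_eq_single r]
    · rw [← Finset.prod_pow_eq_pow_sum]
      apply Finset.prod_congr rfl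
      intro j _
      simp [t]
    · intro k _ hk
      apply Finset.prod_eq_one
      intro j _
      simp [t, Function.update_of_ne hk]
    · intro h
      exact absurd (Finset.mem_univ _) h
  have h5 : (∏ i, blockM t (1 : Matrix (Fin m) (Fin m) ℂ) i i ^ lam i) =
      (2 : ℂ) ^ lam (Fin.castAdd m r) := by
    rw [Fin.prod_univ_add]
    simp only [blockM_cc, blockM_nn, Matrix.diagonal_apply_eq, Matrix.one_apply_eq, one_pow,
      Finset.prod_const_one, mul_one]
    rw [Finset.prod_eq_single r]
    · simp [t]
    · intro k _ hk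
      simp [t, Function.update_of_ne hk]
    · intro h
      exact absurd (Finset.mem_univ _) h
  simp only [h4, h5] at h3
  have h6 : ((2 ^ (∑ j, u (r, j)) : ℕ) : ℂ) = ((2 ^ lam (Fin.castAdd m r) : ℕ) : ℂ) := by
    push_cast
    exact h3
  exact Nat.pow_right_injective (le_refl 2) (by exact_mod_cast h6)

/-- **Cutting off the top rows.** The highest weight polynomials in `R + m` rows are bounded by
the monomials in the top rows times the highest weight polynomials in the bottom rows. -/
theorem finrank_hwSpace_le (R m : ℕ) (σ : Type) [Fintype σ] (lam : Fin (R + m) → ℕ) :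
    Module.finrank ℂ (hwSpace lam (polyAct (R + m) σ)) ≤
      (∏ r : Fin R, (lam (Fin.castAdd m r) + 1) ^ Fintype.card σ) *
        Module.finrank ℂ (hwSpace (fun i => lam (Fin.natAdd R i)) (polyAct m σ)) := by
  classical
  let T := (p : Fin R × σ) → Fin (lam (Fin.castAdd m p.1) + 1)
  let e : T → (Fin R × σ →₀ ℕ) := fun u => Finsupp.equivFunOnFinite.symm (fun p => (u p : ℕ))
  let L : hwSpace lam (polyAct (R + m) σ) →ₗ[ℂ]
      (T → hwSpace (fun i => lam (Fin.natAdd R i)) (polyAct m σ)) :=
    { toFun := fun f u => ⟨coeff (e u) (splitP R m σ f.1), coeff_split_mem f.2 (e u)⟩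
      map_add' := fun f g => by
        funext u
        apply Subtype.ext
        change coeff (e u) (splitP R m σ (f.1 + g.1)) = coeff (e u) (splitP R m σ f.1) +
          coeff (e u) (splitP R m σ g.1)
        rw [map_add, coeff_add]
      map_smul' := fun c f => by
        funext u
        apply Subtype.ext
        change coeff (e u) (splitP R m σ (c • f.1)) = c • coeff (e u) (splitP R m σ f.1)
        rw [map_smul]
        rfl }
  have hL : Function.Injective L := by
    rw [← LinearMap.ker_eq_bot, LinearMap.ker_eq_bot']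
    intro f hf
    apply Subtype.ext
    rw [ZeroMemClass.coe_zero]
    apply (splitP R m σ).injective
    rw [map_zero]
    apply MvPolynomial.ext
    intro v
    rw [coeff_zero]
    by_contra hv
    have h1 : ∀ p : Fin R × σ, v p < lam (Fin.castAdd m p.1) + 1 := by
      intro p
      rw [← coeff_split_deg f.2 hv p.1]
      have h3 : v p ≤ ∑ j, v (p.1, j) :=
        Finset.single_le_sum (f := fun j => v (p.1, j)) (fun j _ => Nat.zero_le _)
          (Finset.mem_univ p.2)
      omega
    have h5 := congrArg Subtype.val (congrFun hf (fun p => ⟨v p, h1 p⟩))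
    apply hv
    have h6 : e (fun p => ⟨v p, h1 p⟩) = v := by
      ext p
      rfl
    change coeff (e (fun p => ⟨v p, h1 p⟩)) (splitP R m σ f.1) = 0 at h5
    rw [h6] at h5
    exact h5
  refine (LinearMap.finrank_le_finrank_of_injective hL).trans (le_of_eq ?_)
  rw [Module.finrank_pi_fintype, Finset.sum_const, smul_eq_mul, Finset.card_univ]
  congr 1
  rw [Fintype.card_pi, Fintype.prod_prod_type]
  simp only [Fintype.card_fin, Finset.prod_const, Finset.card_univ]

/-- The plethysm multiplicity is at most the number of independent highest weight polynomials. -/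
theorem plethMult_le_finrank (n a b : ℕ) (lam : Fin n → ℕ) :
    plethMult a b n lam ≤ Module.finrank ℂ (hwSpace lam (polyAct n (Fin a))) := by
  rw [plethMult]
  let L : hwSpace lam (plethAct a b n) →ₗ[ℂ] hwSpace lam (polyAct n (Fin a)) :=
    { toFun := fun x => ⟨theta n a b x.1, fun g hg => by
        have h1 := theta_act n a b g x.1
        have h2 : symMap a (symMap b (Matrix.toLin' g)) x.1 = (∏ i, g i i ^ lam i) • x.1 :=
          x.2 g hg
        rw [← h1, h2]
        exact map_smul (theta n a b) _ _⟩
      map_add' := fun x y => by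
        apply Subtype.ext
        exact map_add (theta n a b) x.1 y.1
      map_smul' := fun c x => by
        apply Subtype.ext
        exact map_smul (theta n a b) c x.1 }
  apply LinearMap.finrank_le_finrank_of_injective (f := L)
  intro x y hxy
  apply Subtype.ext
  exact theta_injective n a b (congrArg Subtype.val hxy)

/-- **The upper bound.** -/
theorem plethMult_le_prod_mul (a b R m : ℕ) (lam : Fin (R + m) → ℕ) :
    plethMult a b (R + m) lam ≤
      (∏ r : Fin R, (lam (Fin.castAdd m r) + 1) ^ a) *
        Module.finrank ℂ (HW m (Fin a) (fun i => lam (Fin.natAdd R i))) := by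
  refine (plethMult_le_finrank (R + m) a b lam).trans ((finrank_hwSpace_le R m (Fin a) lam).trans ?_)
  rw [Fintype.card_fin]
  exact Nat.mul_le_mul_left _ (Submodule.finrank_mono (hwSpace_le_HW _))

/-- **The upper bound, in the form for the assembly**: `c = R + m` rows, the top `R` rows are at
most `L`. -/
theorem plethMult_le_pow {a b c R m : ℕ} (h : R + m = c) (lam : Fin c → ℕ) (L : ℕ)
    (hL : ∀ i : Fin c, (i : ℕ) < R → lam i ≤ L) :
    plethMult a b c lam ≤ (L + 1) ^ (R * a) *
      Module.finrank ℂ (HW m (Fin a)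
        (fun i => lam ⟨R + i, by have := i.isLt; omega⟩)) := by
  subst h
  refine (plethMult_le_prod_mul a b R m lam).trans (Nat.mul_le_mul_right _ ?_)
  calc ∏ r : Fin R, (lam (Fin.castAdd m r) + 1) ^ a
      ≤ ∏ _r : Fin R, (L + 1) ^ a := by
        apply Finset.prod_le_prod'
        intro r _
        exact Nat.pow_le_pow_left (Nat.add_le_add_right (hL _ (by simp)) 1) a
    _ = (L + 1) ^ (R * a) := by
        rw [Finset.prod_const, Finset.card_univ, Fintype.card_fin, ← pow_mul, mul_comm]

end Vale.Agent.P181.T4
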