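import Vale.Agent.P181.H280.Form

set_option autoImplicit false

/-!
# The polynomial model

`Sym^a(Sym^b ℂ^n)` embeds, equivariantly, into the polynomials on `n × a` matrices.
-/

open scoped TensorProduct
open MvPolynomial

namespace Vale.Agent.P181.T4

open Vale.Agent.P181 Vale.Agent.P181.H280

/-- The action of matrices on the polynomials in the entries of an `n × σ` matrix `x`:
`x_{i,j}` is replaced by `∑ k, g k i x_{k,j}`. -/
noncomputable def polyAct (n : ℕ) (σ : Type) (g : Matrix (Fin n) (Fin n) ℂ) :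
    MvPolynomial (Fin n × σ) ℂ →ₗ[ℂ] MvPolynomial (Fin n × σ) ℂ :=
  (aeval (fun p : Fin n × σ => ∑ k, g k p.1 • (X (k, p.2) : MvPolynomial (Fin n × σ) ℂ))).toLinearMap

lemma polyAct_X {n : ℕ} {σ : Type} (g : Matrix (Fin n) (Fin n) ℂ) (p : Fin n × σ) :
    polyAct n σ g (X p) = ∑ k, g k p.1 • X (k, p.2) := by
  rw [polyAct, AlgHom.toLinearMap_apply, aeval_X]

lemma polyAct_mul {n : ℕ} {σ : Type} (g : Matrix (Fin n) (Fin n) ℂ)
    (f h : MvPolynomial (Fin n × σ) ℂ) :
    polyAct n σ g (f * h) = polyAct n σ g f * polyAct n σ g h := by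
  simp only [polyAct, AlgHom.toLinearMap_apply, map_mul]

lemma polyAct_prod {n : ℕ} {σ : Type} (g : Matrix (Fin n) (Fin n) ℂ) {κ : Type} (s : Finset κ)
    (f : κ → MvPolynomial (Fin n × σ) ℂ) :
    polyAct n σ g (∏ i ∈ s, f i) = ∏ i ∈ s, polyAct n σ g (f i) := by
  simp only [polyAct, AlgHom.toLinearMap_apply, map_prod]

/-- The linear form `∑ i, v i x_{i,j}`. -/
noncomputable def colLin (n : ℕ) {σ : Type} (j : σ) :
    (Fin n → ℂ) →ₗ[ℂ] MvPolynomial (Fin n × σ) ℂ :=
  ∑ i, (LinearMap.proj (R := ℂ) (φ := fun _ : Fin n => ℂ) i).smulRight (X (i, j))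

lemma colLin_apply (n : ℕ) {σ : Type} (j : σ) (v : Fin n → ℂ) :
    colLin n j v = ∑ i, v i • (X (i, j) : MvPolynomial (Fin n × σ) ℂ) := by
  simp only [colLin, LinearMap.sum_apply, LinearMap.smulRight_apply, LinearMap.proj_apply]

lemma polyAct_colLin {n : ℕ} {σ : Type} (g : Matrix (Fin n) (Fin n) ℂ) (j : σ) (v : Fin n → ℂ) :
    polyAct n σ g (colLin n j v) = colLin n j (Matrix.toLin' g v) := by
  rw [colLin_apply, colLin_apply, map_sum]
  simp only [map_smul, polyAct_X, Matrix.toLin'_apply, Matrix.mulVec, dotProduct, Finset.smul_sum,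
    Finset.sum_smul, smul_smul]
  rw [Finset.sum_comm]
  apply Finset.sum_congr rfl
  intro i _
  apply Finset.sum_congr rfl
  intro k _
  rw [mul_comm]

/-- Column `j`: the product of `b` vectors becomes a product of `b` linear forms in column `j`. -/
noncomputable def colSym (n b : ℕ) {σ : Type} (j : σ) :
    (Sym[ℂ]^b (Fin n → ℂ)) →ₗ[ℂ] MvPolynomial (Fin n × σ) ℂ :=
  symLift ((MultilinearMap.mkPiAlgebra ℂ (Fin b) (MvPolynomial (Fin n × σ) ℂ)).compLinearMap
    (fun _ => colLin n j)) (fun e v => by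
      simp only [MultilinearMap.compLinearMap_apply, MultilinearMap.mkPiAlgebra_apply]
      exact Equiv.prod_comp e (fun i => colLin n j (v i)))

lemma colSym_tprod (n b : ℕ) {σ : Type} (j : σ) (v : Fin b → (Fin n → ℂ)) :
    colSym n b j (SymmetricPower.tprod ℂ v) = ∏ t, colLin n j (v t) := by
  rw [colSym, symLift_tprod]
  simp only [MultilinearMap.compLinearMap_apply, MultilinearMap.mkPiAlgebra_apply]

/-- The product over the columns, symmetrised. -/
noncomputable def thetaMul (n a b : ℕ) :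
    MultilinearMap ℂ (fun _ : Fin a => (Sym[ℂ]^b (Fin n → ℂ))) (MvPolynomial (Fin n × Fin a) ℂ) :=
  ∑ σ : Equiv.Perm (Fin a), ((MultilinearMap.mkPiAlgebra ℂ (Fin a)
    (MvPolynomial (Fin n × Fin a) ℂ)).compLinearMap (fun j => colSym n b j)).domDomCongr σ

lemma thetaMul_apply (n a b : ℕ) (y : Fin a → (Sym[ℂ]^b (Fin n → ℂ))) :
    thetaMul n a b y = ∑ σ : Equiv.Perm (Fin a), ∏ j, colSym n b j (y (σ j)) := by
  simp only [thetaMul, _root_.sum_apply, MultilinearMap.domDomCongr_apply,
    MultilinearMap.compLinearMap_apply, MultilinearMap.mkPiAlgebra_apply]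

/-- The embedding of `Sym^a(Sym^b ℂ^n)` into the polynomials on `n × a` matrices. -/
noncomputable def theta (n a b : ℕ) : (Sym[ℂ]^a (Sym[ℂ]^b (Fin n → ℂ))) →ₗ[ℂ]
    MvPolynomial (Fin n × Fin a) ℂ :=
  symLift (thetaMul n a b) (fun e y => by
    rw [thetaMul_apply, thetaMul_apply]
    rw [← Equiv.sum_comp (Equiv.mulLeft e⁻¹)
      (fun σ : Equiv.Perm (Fin a) => ∏ j, colSym n b j (y (e (σ j))))]
    apply Finset.sum_congr rfl
    intro σ _
    apply Finset.prod_congr rfl
    intro j _
    simp)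

lemma theta_tprod (n a b : ℕ) (v : Fin a → Fin b → (Fin n → ℂ)) :
    theta n a b (SymmetricPower.tprod ℂ (fun i => SymmetricPower.tprod ℂ (v i))) =
      ∑ σ : Equiv.Perm (Fin a), ∏ j, ∏ t, colLin n j (v (σ j) t) := by
  rw [theta, symLift_tprod, thetaMul_apply]
  simp only [colSym_tprod]

/-- `theta` commutes with the actions of matrices. -/
lemma theta_act (n a b : ℕ) (g : Matrix (Fin n) (Fin n) ℂ)
    (x : Sym[ℂ]^a (Sym[ℂ]^b (Fin n → ℂ))) :
    theta n a b (symMap a (symMap b (Matrix.toLin' g)) x) = polyAct n (Fin a) g (theta n a b x) := by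
  have h : theta n a b ∘ₗ symMap a (symMap b (Matrix.toLin' g)) =
      polyAct n (Fin a) g ∘ₗ theta n a b := by
    apply pure_hom_ext
    intro v
    rw [LinearMap.comp_apply, LinearMap.comp_apply, symMap_tprod]
    simp only [symMap_tprod]
    rw [theta_tprod n a b (fun i t => Matrix.toLin' g (v i t)), theta_tprod, map_sum]
    apply Finset.sum_congr rfl
    intro σ _
    simp only [polyAct_prod, polyAct_colLin]
  exact LinearMap.congr_fun h x

/-- Evaluation of `theta x` at the columns `ξ_1, …, ξ_a`. -/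
lemma theta_eval {n a b : ℕ} (ξ : Fin a → Module.Dual ℂ (Fin n → ℂ))
    (x : Sym[ℂ]^a (Sym[ℂ]^b (Fin n → ℂ))) :
    symEval (fun j => symEval (fun _ : Fin b => ξ j)) x =
      ((Fintype.card (Equiv.Perm (Fin b)) : ℂ)) ^ a *
        aeval (R := ℂ) (fun p : Fin n × Fin a => ξ p.2 (Pi.single p.1 1)) (theta n a b x) := by
  have h : symEval (fun j => symEval (fun _ : Fin b => ξ j)) =
      ((Fintype.card (Equiv.Perm (Fin b)) : ℂ)) ^ a •
        ((aeval (R := ℂ) (fun p : Fin n × Fin a => ξ p.2 (Pi.single p.1 1))).toLinearMap ∘ₗ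
          theta n a b) := by
    apply pure_hom_ext
    intro v
    rw [LinearMap.smul_apply, LinearMap.comp_apply, AlgHom.toLinearMap_apply, theta_tprod,
      map_sum, symEval_tprod, smul_eq_mul, Finset.mul_sum]
    apply Finset.sum_congr rfl
    intro σ _
    have h1 : ∀ j : Fin a, symEval (fun _ : Fin b => ξ j) (SymmetricPower.tprod ℂ (v (σ j))) =
        (Fintype.card (Equiv.Perm (Fin b)) : ℂ) * ∏ t, ξ j (v (σ j) t) := by
      intro j
      rw [symEval_tprod]
      have h2 : ∀ e : Equiv.Perm (Fin b), ∏ i, ξ j (v (σ j) (e i)) = ∏ t, ξ j (v (σ j) t) :=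
        fun e => Equiv.prod_comp e (fun t => ξ j (v (σ j) t))
      rw [Finset.sum_congr rfl (fun e _ => h2 e), Finset.sum_const, nsmul_eq_mul, Finset.card_univ]
    rw [Finset.prod_congr rfl (fun j _ => h1 j), Finset.prod_mul_distrib, Finset.prod_const,
      Finset.card_univ, Fintype.card_fin]
    congr 1
    rw [map_prod]
    apply Finset.prod_congr rfl
    intro j _
    rw [map_prod]
    apply Finset.prod_congr rfl
    intro t _
    rw [colLin_apply, map_sum]
    simp only [map_smul, aeval_X, smul_eq_mul]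
    conv_lhs => rw [← Finset.univ_sum_single (v (σ j) t)]
    rw [map_sum]
    apply Finset.sum_congr rfl
    intro i _
    have h3 : (Pi.single i (v (σ j) t i) : Fin n → ℂ) = v (σ j) t i • Pi.single i 1 := by
      rw [← Pi.single_smul, smul_eq_mul, mul_one]
    rw [h3, map_smul, smul_eq_mul]
  exact LinearMap.congr_fun h x

/-- `theta` is injective. -/
lemma theta_injective (n a b : ℕ) : Function.Injective (theta n a b) := by
  have key : ∀ x, theta n a b x = 0 → x = 0 := by
    intro x hx
    obtain ⟨l, hl⟩ := exists_elOf x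
    rw [← hl]
    apply elOf_eq_zero
    intro P hP
    have hvan : ∀ w : Fin a → MvPolynomial (Fin n) ℂ,
        (∀ i, w i ∈ ((fun z => z ^ b) '' (linS n : Set (MvPolynomial (Fin n) ℂ)))) →
          formOf l w = 0 := by
      intro w hw
      choose ζ hζ hw' using hw
      choose ξ hξ using fun i => exists_dual (hζ i)
      have h1 : w = fun i => ∏ _j : Fin b, ζ i := by
        funext i
        rw [Finset.prod_const, Finset.card_univ, Fintype.card_fin]
        exact (hw' i).symm
      have h2 := formOf_lin l (fun i _ => ζ i) (fun i _ => ξ i) (fun i _ => hξ i)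
      have h3 := theta_eval ξ (elOf l)
      rw [hl, hx, map_zero, mul_zero, ← hl] at h3
      rw [h1, h2, h3]
    exact multilinear_zero_of_span (formOf l) _ hvan P (fun i => pow_le_span_pow _ _ (hP i))
  exact (injective_iff_map_eq_zero _).2 key

end Vale.Agent.P181.T4
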